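import Vale.Agent.P147W36.Defs

/-! The position of the walk as a point of Euclidean space, and limits of directions. -/

open Filter
open scoped Topology

namespace Vale.Agent.N147

open Vale.Agent.P147W36

variable {d : ℕ}

/-- the position `X n` as a point of the Euclidean space `ℝ ^ d` -/
def pos (X : Paths d) (n : ℕ) : EuclideanSpace ℝ (Fin d) :=
  WithLp.toLp 2 fun i => (X n i : ℝ)

/-- `ν` is a unit vector and `y n / |y n|` tends to `ν` -/
def DirTo (y : ℕ → EuclideanSpace ℝ (Fin d)) (ν : EuclideanSpace ℝ (Fin d)) : Prop :=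
  ‖ν‖ = 1 ∧ Tendsto (fun n => ‖y n‖⁻¹ • y n) atTop (𝓝 ν)

/-- the orthogonal projection of `X n` on the subspace `W` -/
noncomputable def proj (W : Submodule ℝ (EuclideanSpace ℝ (Fin d))) (X : Paths d) (n : ℕ) :
    EuclideanSpace ℝ (Fin d) := W.starProjection (pos X n)

/-- the ratio `(X n ⬝ l) / (X n ⬝ ν)` has the upper limit `+ ∞` and the lower limit `- ∞` -/
def Unbounded (X : Paths d) (l ν : EuclideanSpace ℝ (Fin d)) : Prop :=
  ∀ K : ℝ, (∃ᶠ n in atTop, K ≤ inner ℝ (pos X n) l / inner ℝ (pos X n) ν) ∧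
    ∃ᶠ n in atTop, inner ℝ (pos X n) l / inner ℝ (pos X n) ν ≤ K

end Vale.Agent.N147
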