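import Vale.Agent.P147.H686.LnMain

/-! The ratio of the progress in two directions of escape converges to a positive constant. -/

open MeasureTheory Filter ProbabilityTheory
open scoped ENNReal Topology

namespace Vale.Agent.N147

open Vale.Agent.P147 Vale.Agent.P147.Z Vale.Agent.P147.Z.Reg

variable {d : ℕ} {L : Site d →+ ℝ} (μ : Measure (Row d)) [IsProbabilityMeasure μ]

/-- The first `K` blocks have values below a linear bound. -/
def Bd (L : Site d →+ ℝ) (f : List (Dir d) → ℝ) (C : ℝ) (m K : ℕ) : Set (ℕ → Site d) :=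
  {X | ∀ k < K, fb L f k X ≤ C * ((m + k + 1 : ℕ) : ℝ)}

lemma meas_fb (f : List (Dir d) → ℝ) (k : ℕ) : Measurable (fb L f k) :=
  (meas_comp_sg L f).comp ((meas_th L).iterate k)

lemma meas_Bd (f : List (Dir d) → ℝ) (C : ℝ) (m K : ℕ) : MeasurableSet (Bd L f C m K) := by
  have : Bd L f C m K = ⋂ k, ⋂ _ : k < K, {X | fb L f k X ≤ C * ((m + k + 1 : ℕ) : ℝ)} := by
    ext X
    simp [Bd]
  rw [this]
  exact MeasurableSet.iInter fun k => MeasurableSet.iInter fun _ =>
    measurableSet_le (meas_fb f k) measurable_const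

lemma Bd_succ (f : List (Dir d) → ℝ) (C : ℝ) (m K : ℕ) : Bd L f C m (K + 1) =
    sg L ⁻¹' {a | f a ≤ C * ((m + 1 : ℕ) : ℝ)} ∩ th L ⁻¹' Bd L f C (m + 1) K := by
  ext X
  simp only [Bd, Set.mem_ofPred_eq, Set.mem_inter_iff, Set.mem_preimage]
  constructor
  · intro h
    refine ⟨h 0 (Nat.succ_pos K), fun k hk => ?_⟩
    have := h (k + 1) (by omega)
    rwa [show m + (k + 1) + 1 = m + 1 + k + 1 by omega] at this
  · rintro ⟨h0, h⟩ k hk
    cases k with
    | zero => exact h0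
    | succ k =>
      have := h k (by omega)
      rwa [show m + 1 + k + 1 = m + (k + 1) + 1 by omega] at this

lemma step_ineq {p S e : ℝ} (hp : 0 ≤ p) (hS : 0 ≤ S) (he : 0 ≤ e) (h : e * (1 + S) ≤ 1) :
    (1 - p) * e * (1 + (S + p)) ≤ 1 := by
  have h4 : (1 - p) * e * (1 + (S + p)) = e * (1 + S) - e * (p * (S + p)) := by ring
  have h5 : 0 ≤ e * (p * (S + p)) := by positivity
  linarith

lemma Bd_le (hL : Lvl L) (hp : annealed μ 0 (UpR L) ≠ 0) (f : List (Dir d) → ℝ) (C : ℝ) (K : ℕ) :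
    ∀ m, (nu L μ).real (Bd L f C m K) * (1 + ∑ k ∈ Finset.range K,
      (nu L μ).real (sg L ⁻¹' {a | C * ((m + k + 1 : ℕ) : ℝ) < f a})) ≤ 1 := by
  have := nu_prob μ hp
  induction K with
  | zero =>
    intro m
    simp only [Finset.range_zero, Finset.sum_empty, add_zero, mul_one]
    exact measureReal_le_one
  | succ K ih =>
    intro m
    have h1 : (nu L μ).real (Bd L f C m (K + 1)) =
        (nu L μ).real (sg L ⁻¹' {a | f a ≤ C * ((m + 1 : ℕ) : ℝ)}) *
          (nu L μ).real (Bd L f C (m + 1) K) := by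
      rw [Bd_succ, Measure.real, nu_inter μ hL hp _ (meas_Bd f C _ _), ENNReal.toReal_mul]
      rfl
    have h2 : (nu L μ).real (sg L ⁻¹' {a | f a ≤ C * ((m + 1 : ℕ) : ℝ)}) =
        1 - (nu L μ).real (sg L ⁻¹' {a | C * ((m + 1 : ℕ) : ℝ) < f a}) := by
      rw [← probReal_compl_eq_one_sub (meas_sg L _)]
      congr 1
      ext X
      simp
    have h3 := ih (m + 1)
    rw [Finset.sum_range_succ', h1, h2]
    simp only [show ∀ k, m + (k + 1) + 1 = m + 1 + k + 1 from fun k => by omega, add_zero]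
    exact step_ineq measureReal_nonneg (Finset.sum_nonneg fun _ _ => measureReal_nonneg)
      measureReal_nonneg h3

/-- A function of the blocks with at most linear growth is integrable. -/
theorem int_of_linear (hL : Lvl L) (hp : annealed μ 0 (UpR L) ≠ 0) (f : List (Dir d) → ℝ)
    (hf : ∀ a, 0 ≤ f a) {C : ℝ} (hC : 0 < C)
    (h : ∀ᵐ X ∂(nu L μ), ∀ᶠ k : ℕ in atTop, fb L f k X ≤ C * ((k + 1 : ℕ) : ℝ)) :
    Integrable (fun X => f (sg L X)) (nu L μ) := by
  have hprob := nu_prob μ hp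
  obtain ⟨m, hm⟩ : ∃ m, nu L μ ((th L)^[m] ⁻¹' ⋂ K, Bd L f C m K) ≠ 0 := by
    by_contra hcon
    push Not at hcon
    have h1 : ∀ᵐ X ∂(nu L μ), X ∉ ⋃ m, (th L)^[m] ⁻¹' ⋂ K, Bd L f C m K :=
      measure_eq_zero_iff_ae_notMem.1 (measure_iUnion_null hcon)
    obtain ⟨X, h2, h3⟩ := (h.and h1).exists
    obtain ⟨m, hm⟩ := eventually_atTop.1 h2
    refine h3 (Set.mem_iUnion.2 ⟨m, Set.mem_iInter.2 fun K k _ => ?_⟩)
    have := hm (k + m) (by omega)
    rw [fb, Function.iterate_add_apply, add_comm k m] at this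
    exact this
  rw [(mp_iter μ hL hp m).measure_preimage
    (MeasurableSet.iInter fun K => meas_Bd f C m K).nullMeasurableSet] at hm
  set δ := (nu L μ).real (⋂ K, Bd L f C m K) with hδ
  have hδ0 : 0 < δ := ENNReal.toReal_pos hm (measure_ne_top _ _)
  set p : ℕ → ℝ := fun j => (nu L μ).real (sg L ⁻¹' {a | C * ((j + 1 : ℕ) : ℝ) < f a}) with hpd
  have hsum : Summable p := by
    rw [← summable_nat_add_iff m]
    refine summable_of_sum_range_le (c := 1 / δ) (fun _ => measureReal_nonneg) fun K => ?_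
    have h1 := Bd_le μ hL hp f C K m
    have h2 : δ ≤ (nu L μ).real (Bd L f C m K) := measureReal_mono (Set.iInter_subset _ K)
    have h3 : 0 ≤ ∑ k ∈ Finset.range K, p (k + m) :=
      Finset.sum_nonneg fun _ _ => measureReal_nonneg
    simp only [add_comm m] at h1
    rw [le_div_iff₀ hδ0]
    have h4 : (nu L μ).real (Bd L f C m K) * (1 + ∑ k ∈ Finset.range K, p (k + m)) ≤ 1 := h1
    nlinarith
  have hmeas : Measurable fun X => f (sg L X) := meas_comp_sg L f
  refine ⟨hmeas.aestronglyMeasurable, ?_⟩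
  have hle : ∀ X, ‖f (sg L X)‖ₑ ≤ ENNReal.ofReal C * (1 + ∑' j : ℕ,
      (sg L ⁻¹' {a | C * ((j + 1 : ℕ) : ℝ) < f a}).indicator (fun _ => (1 : ℝ≥0∞)) X) := by
    intro X
    set N := ⌈f (sg L X) / C⌉₊ - 1 with hN
    have h1 : f (sg L X) ≤ C * (1 + N) := by
      have h2 := Nat.le_ceil (f (sg L X) / C)
      have h3 : (⌈f (sg L X) / C⌉₊ : ℝ) ≤ 1 + N := by
        have : ⌈f (sg L X) / C⌉₊ ≤ 1 + N := by omega
        exact_mod_cast this
      rw [div_le_iff₀ hC] at h2
      nlinarith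
    have h2 : (N : ℝ≥0∞) ≤ ∑' j : ℕ,
        (sg L ⁻¹' {a | C * ((j + 1 : ℕ) : ℝ) < f a}).indicator (fun _ => (1 : ℝ≥0∞)) X := by
      refine le_trans ?_ (ENNReal.sum_le_tsum (Finset.range N))
      rw [Finset.sum_congr rfl (g := fun _ => (1 : ℝ≥0∞)) fun j hj => ?_]
      · simp
      · refine Set.indicator_of_mem ?_ _
        have h3 : j + 1 < ⌈f (sg L X) / C⌉₊ := by
          have := Finset.mem_range.1 hj
          omega
        have h4 := Nat.lt_ceil.1 h3
        rw [lt_div_iff₀ hC, mul_comm] at h4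
        exact h4
    rw [Real.enorm_of_nonneg (hf _)]
    refine (ENNReal.ofReal_le_ofReal h1).trans ?_
    rw [ENNReal.ofReal_mul hC.le, ENNReal.ofReal_add zero_le_one (Nat.cast_nonneg _),
      ENNReal.ofReal_one, ENNReal.ofReal_natCast]
    gcongr
  refine lt_of_le_of_lt (lintegral_mono hle) ?_
  rw [lintegral_const_mul' _ _ ENNReal.ofReal_ne_top, lintegral_add_left measurable_const,
    lintegral_tsum fun j => (measurable_const.indicator (meas_sg L _)).aemeasurable]
  refine ENNReal.mul_lt_top ENNReal.ofReal_lt_top (ENNReal.add_lt_top.2 ⟨by simp, ?_⟩)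
  have h5 : ∀ j : ℕ, ∫⁻ X, (sg L ⁻¹' {a | C * ((j + 1 : ℕ) : ℝ) < f a}).indicator
      (fun _ => (1 : ℝ≥0∞)) X ∂(nu L μ) = ENNReal.ofReal (p j) := by
    intro j
    rw [lintegral_indicator (meas_sg L _), setLIntegral_one, hpd]
    exact (ofReal_measureReal).symm
  simp only [h5]
  rw [← ENNReal.ofReal_tsum_of_nonneg (fun _ => measureReal_nonneg) hsum]
  exact ENNReal.ofReal_lt_top

lemma in_block {X : ℕ → Site d} (h0 : X 0 = 0) (hb : ∀ k, (th L)^[k] X ∈ HasB L) (m j : ℕ)
    (hj : j ≤ (sg L ((th L)^[m] X)).length) :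
    X (St L X m + j) = X (St L X m) + dsp ((sg L ((th L)^[m] X)).take j) := by
  have h5 := (sg_spec (hb m)).2.1 j hj
  have h6 := congrFun (th_iter L h0 m) j
  simp only [nrm, tl, zero_add] at h6
  rw [h5, zero_add] at h6
  rw [h6, add_comm j]
  abel

lemma St_succ (X : ℕ → Site d) (m : ℕ) :
    St L X (m + 1) = St L X m + (sg L ((th L)^[m] X)).length := by
  rw [St, Finset.sum_range_succ]
  rfl

lemma height_le {X : ℕ → Site d} (h0 : X 0 = 0) (hb : ∀ k, (th L)^[k] X ∈ HasB L) (m j : ℕ)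
    (hj : j ≤ (sg L ((th L)^[m] X)).length) : L (X (St L X m + j)) ≤ Ht L X (m + 1) := by
  rcases hj.lt_or_eq with h | h
  · exact (sandwich h0 hb m _ (Nat.le_add_right _ _) (by rw [St_succ]; omega)).2
  · rw [h, ← St_succ, at_end h0 hb]

/-- The largest value of the functional `φ` along a word. -/
noncomputable def mxf (φ : Site d →+ ℝ) (a : List (Dir d)) : ℝ :=
  (Finset.range (a.length + 1)).sup' ⟨0, by simp⟩ fun j => |φ (dsp (a.take j))|

lemma le_mxf (φ : Site d →+ ℝ) (a : List (Dir d)) {j : ℕ} (hj : j ≤ a.length) :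
    |φ (dsp (a.take j))| ≤ mxf φ a :=
  Finset.le_sup' (fun j => |φ (dsp (a.take j))|) (Finset.mem_range.2 (by omega))

lemma mxf_le (φ : Site d →+ ℝ) (a : List (Dir d)) {c : ℝ}
    (h : ∀ j ≤ a.length, |φ (dsp (a.take j))| ≤ c) : mxf φ a ≤ c :=
  Finset.sup'_le _ _ fun j hj => h j (Nat.lt_succ_iff.1 (Finset.mem_range.1 hj))

lemma tendsto_div_of_avg {u : ℕ → ℝ} {c : ℝ}
    (h : Tendsto (fun n : ℕ => (∑ i ∈ Finset.range n, u i) / n) atTop (𝓝 c)) :
    Tendsto (fun n : ℕ => u n / n) atTop (𝓝 0) := by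
  have h1 := h.comp (tendsto_add_atTop_nat 1)
  have hq1 : Tendsto (fun m : ℕ => (m : ℝ) / ((m + 1 : ℕ) : ℝ)) atTop (𝓝 1) := by
    have := tendsto_natCast_div_add_atTop (1 : ℝ)
    refine this.congr fun m => ?_
    push_cast
    rfl
  have hq2 := hq1.inv₀ one_ne_zero
  have h2 := (h1.mul hq2).sub h
  rw [inv_one, mul_one, sub_self] at h2
  refine h2.congr' ?_
  filter_upwards [eventually_ge_atTop 1] with n hn
  have h3 : (n : ℝ) ≠ 0 := by
    have : (0 : ℝ) < n := by exact_mod_cast hn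
    exact this.ne'
  have h4 : ((n + 1 : ℕ) : ℝ) ≠ 0 := by positivity
  simp only [Function.comp, Finset.sum_range_succ]
  field_simp
  ring

lemma exists_index {S : ℕ → ℕ} (hS0 : S 0 = 0) (hS : StrictMono S) :
    ∃ M : ℕ → ℕ, (∀ n, S (M n) ≤ n ∧ n < S (M n + 1)) ∧ Tendsto M atTop atTop := by
  have hex : ∀ n : ℕ, ∃ m, S m ≤ n ∧ n < S (m + 1) := by
    intro n
    have h1 : ∃ m, n < S (m + 1) := ⟨n, lt_of_lt_of_le (Nat.lt_succ_self n) (hS.id_le (n + 1))⟩
    classical
    refine ⟨Nat.find h1, ?_, Nat.find_spec h1⟩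
    rcases Nat.eq_zero_or_pos (Nat.find h1) with h2 | h2
    · rw [h2, hS0]
      exact Nat.zero_le _
    · have h3 := Nat.find_min h1 (Nat.sub_lt h2 one_pos)
      rw [show Nat.find h1 - 1 + 1 = Nat.find h1 by omega] at h3
      exact not_lt.1 h3
  choose M hM1 hM2 using hex
  refine ⟨M, fun n => ⟨hM1 n, hM2 n⟩, ?_⟩
  rw [tendsto_atTop]
  intro b
  filter_upwards [eventually_ge_atTop (S b)] with n hn
  by_contra hcon
  push Not at hcon
  have h1 : S (M n + 1) ≤ S b := hS.monotone (by omega)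
  have h2 := hM2 n
  omega

/-- A functional which is dominated by the height grows linearly in the number of blocks. -/
theorem block_limit (hL : Lvl L) (hp : annealed μ 0 (UpR L) ≠ 0) (φ : Site d →+ ℝ) {C : ℝ}
    (hC : 0 < C) (hφ : ∀ᵐ X ∂(nu L μ), ∀ᶠ n : ℕ in atTop, |φ (X n)| ≤ C * L (X n))
    (hesc : ∀ᵐ X ∂(nu L μ), Tendsto (fun n => φ (X n)) atTop atTop) :
    ∃ a : ℝ, 0 < a ∧ ∀ᵐ X ∂(nu L μ), ∀ M : ℕ → ℕ,
      (∀ n, St L X (M n) ≤ n ∧ n < St L X (M n + 1)) → Tendsto M atTop atTop →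
        Tendsto (fun n => φ (X n) / M n) atTop (𝓝 a) := by
  have hprob := nu_prob μ hp
  have hall := all_blocks μ hL hp
  have hsl := slln μ hL hp (fun a => L (dsp a)) (int_height μ hL hp)
  set g := ∫ X, L (dsp (sg L X)) ∂(nu L μ)
  have hf0 : ∀ a, 0 ≤ mxf φ a := fun a => (abs_nonneg _).trans (le_mxf φ a (Nat.zero_le _))
  have hint : Integrable (fun X => mxf φ (sg L X)) (nu L μ) := by
    refine int_of_linear μ hL hp (mxf φ) hf0 (C := 2 * C * (|g| + 1)) (by positivity) ?_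
    filter_upwards [hall, hsl, hφ] with X h1 h2 h3
    obtain ⟨n₀, hn₀⟩ := eventually_atTop.1 h3
    have h4 : ∀ᶠ k : ℕ in atTop, Ht L X (k + 1) / ((k + 1 : ℕ) : ℝ) < |g| + 1 :=
      (h2.comp (tendsto_add_atTop_nat 1)).eventually_lt_const (by linarith [le_abs_self g])
    filter_upwards [h4, eventually_ge_atTop n₀] with k h5 h6
    have h7 : n₀ ≤ St L X k := h6.trans ((St_strict h1.2).id_le k)
    rw [div_lt_iff₀ (by positivity)] at h5
    refine mxf_le φ (sg L ((th L)^[k] X)) fun j hj' => ?_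
    have e : φ (dsp ((sg L ((th L)^[k] X)).take j)) = φ (X (St L X k + j)) - φ (X (St L X k)) := by
      rw [in_block h1.1 h1.2 k j hj', map_add]
      ring
    have h8 := hn₀ _ (h7.trans (Nat.le_add_right _ j))
    have h9 := hn₀ _ h7
    have h10 := height_le h1.1 h1.2 k j hj'
    have h11 := height_le h1.1 h1.2 k 0 (Nat.zero_le _)
    rw [add_zero] at h11
    rw [e]
    refine (abs_sub _ _).trans ?_
    have h12 := mul_le_mul_of_nonneg_left h10 hC.le
    have h13 := mul_le_mul_of_nonneg_left h11 hC.le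
    have h14 := mul_le_mul_of_nonneg_left h5.le hC.le
    nlinarith
  have hint2 : Integrable (fun X => φ (dsp (sg L X))) (nu L μ) := by
    refine hint.mono' (meas_comp_sg L fun a => φ (dsp a)).aestronglyMeasurable
      (Eventually.of_forall fun X => ?_)
    have := le_mxf φ (sg L X) le_rfl
    rwa [List.take_length] at this
  have hs1 := slln μ hL hp (mxf φ) hint
  have hs2 := slln μ hL hp (fun a => φ (dsp a)) hint2
  set a := ∫ X, φ (dsp (sg L X)) ∂(nu L μ)
  have hS : ∀ {X : ℕ → Site d}, X 0 = 0 → (∀ k, (th L)^[k] X ∈ HasB L) → ∀ m,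
      ∑ i ∈ Finset.range m, fb L (fun a => φ (dsp a)) i X = φ (X (St L X m)) := by
    intro X h0 hb m
    rw [at_end_vec h0 hb, map_sum]
    rfl
  have hinf : ∀ᵐ X ∂(nu L μ), Tendsto (fun m => ∑ i ∈ Finset.range m,
      fb L (fun a => φ (dsp a)) i X) atTop atTop := by
    filter_upwards [hesc, hall] with X h1 h2
    exact (h1.comp (St_strict h2.2).tendsto_atTop).congr fun m => (hS h2.1 h2.2 m).symm
  have ha0 : 0 ≤ a := by
    obtain ⟨X, h1, h2⟩ := (hs2.and hinf).exists
    refine ge_of_tendsto h1 ?_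
    filter_upwards [h2.eventually_ge_atTop 0] with n hn using div_nonneg hn (Nat.cast_nonneg n)
  have ha : a ≠ 0 := by
    intro h
    rw [h] at hs2
    exact Stat.no_escape (mp_th μ hL hp) (meas_comp_sg L fun a => φ (dsp a)) hs2 hinf
  refine ⟨a, lt_of_le_of_ne ha0 ha.symm, ?_⟩
  filter_upwards [hall, hs1, hs2] with X h1 h2 h3 M hM hMt
  have h4 := (tendsto_div_of_avg h2).comp hMt
  have h5 := h3.comp hMt
  have h6 : Tendsto (fun n => (φ (X n) - φ (X (St L X (M n)))) / M n) atTop (𝓝 0) := by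
    refine squeeze_zero_norm (fun n => ?_) h4
    obtain ⟨j, hj⟩ := Nat.exists_eq_add_of_le (hM n).1
    have hj' : j ≤ (sg L ((th L)^[M n] X)).length := by
      have := (hM n).2
      rw [St_succ] at this
      omega
    have e : X n = X (St L X (M n)) + dsp ((sg L ((th L)^[M n] X)).take j) := by
      rw [← in_block h1.1 h1.2 (M n) j hj', ← hj]
    rw [e, map_add, add_sub_cancel_left, Real.norm_eq_abs, abs_div, Nat.abs_cast]
    exact div_le_div_of_nonneg_right (le_mxf φ _ hj') (Nat.cast_nonneg _)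
  have h7 := h6.add h5
  rw [zero_add] at h7
  refine h7.congr fun n => ?_
  simp only [Function.comp, hS h1.1 h1.2]
  ring

/-- The walk escapes in the direction `w` and the ratio of the progress in the directions `v` and
`w` tends to `r`. -/
def Rat (v w : Fin d → ℝ) (r : ℝ) : Set (ℕ → Site d) :=
  Escape w ∩ {X | Tendsto (fun n => inner (X n) v / inner (X n) w) atTop (𝓝 r)}

lemma meas_Rat (v w : Fin d → ℝ) (r : ℝ) : MeasurableSet (Rat v w r) :=
  (Ln.meas_escape w).inter (measurableSet_tendsto (𝓝 r) fun n =>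
    (Ln.measurable_inner n v).div (Ln.measurable_inner n w))

lemma tinv_Rat (v w : Fin d → ℝ) (r : ℝ) : TInv (Rat v w r) := by
  have key : ∀ (z : Site d) (X : ℕ → Site d), X ∈ Rat v w r → tr z X ∈ Rat v w r := by
    intro z X hX
    refine ⟨(Ln.tinv_escape w z X).2 hX.1, ?_⟩
    have h0 : Tendsto (fun n => inner (X n) w) atTop atTop := hX.1
    have h1 := (hX.2.add (h0.const_div_atTop (inner z v))).div
      ((h0.const_div_atTop (inner z w)).const_add 1) (by simp)
    simp only [add_zero, div_one] at h1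
    refine h1.congr' ?_
    filter_upwards [h0.eventually_gt_atTop 0] with n hn
    simp only [Pi.div_apply, tr, Ln.inner_add_left]
    rw [← add_div, one_add_div hn.ne', div_div_div_cancel_right₀ hn.ne']
  intro z X
  refine ⟨fun hX => ?_, key z X⟩
  have := key (-z) _ hX
  have e : tr (-z) (tr z X) = X := by
    funext n
    simp [tr]
  rwa [e] at this

lemma sinv_Rat (v w : Fin d → ℝ) (r : ℝ) : SInv (Rat v w r) := fun X =>
  and_congr (tendsto_add_atTop_iff_nat (f := fun n => inner (X n) w) 1)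
    (tendsto_add_atTop_iff_nat (f := fun n => inner (X n) v / inner (X n) w) 1)

lemma inner_add_right (x : Site d) (v w : Fin d → ℝ) :
    inner x (v + w) = inner x v + inner x w := by
  simp [P147.inner, mul_add, Finset.sum_add_distrib]

/-- **Ratio theorem.** -/
theorem ratio (hd : 2 ≤ d) (hμ : Elliptic μ) {v w : Fin d → ℝ}
    (hv : ∀ᵐ X ∂(annM μ 0), X ∈ (Escape v : Set (ℕ → Site d)))
    (hw : ∀ᵐ X ∂(annM μ 0), X ∈ (Escape w : Set (ℕ → Site d))) :
    ∃ r : ℝ, 0 < r ∧ ∀ᵐ X ∂(annM μ 0), X ∈ Rat v w r := by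
  have hvw : ∀ᵐ X ∂(annM μ 0), X ∈ (Escape (v + w) : Set (ℕ → Site d)) := by
    filter_upwards [hv, hw] with X h1 h2
    exact (h1.atTop_add_atTop h2).congr fun n => (inner_add_right _ _ _).symm
  have hne : v + w ≠ 0 := by
    intro h
    obtain ⟨X, hX⟩ := hvw.exists
    obtain ⟨n, hn⟩ := (tendsto_atTop.1 hX 1).exists
    rw [h] at hn
    simp [P147.inner] at hn
    linarith
  have hn : 0 < ‖v + w‖ := norm_pos_iff.2 hne
  have hL := lvl_lev hne
  have hpos : ∀ {u : Fin d → ℝ}, (∀ᵐ X ∂(annM μ 0), X ∈ (Escape u : Set (ℕ → Site d))) →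
      annealed μ 0 (Escape u) ≠ 0 := by
    intro u hu h0
    rw [← annM_apply μ 0 (Ln.meas_escape u)] at h0
    obtain ⟨X, h1, h2⟩ := (hu.and (measure_eq_zero_iff_ae_notMem.1 h0)).exists
    exact h2 h1
  have hp : annealed μ 0 (UpR (lev (v + w))) ≠ 0 := by
    have := upR_pos μ (lev (v + w)) MeasurableSet.univ (B := Set.univ) (fun _ _ => by simp)
      (fun _ => by simp) (by rw [Set.inter_univ, ← escape_lev hne]; exact hpos hvw)
    simpa only [ne_eq, Set.inter_univ] using this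
  have hprob := nu_prob μ hp
  have hb : ∀ᵐ X ∂(nu (lev (v + w)) μ), ∀ᶠ n : ℕ in atTop,
      |innerHom v (X n)| ≤ ‖v + w‖ * lev (v + w) (X n) ∧
        |innerHom w (X n)| ≤ ‖v + w‖ * lev (v + w) (X n) := by
    refine nu_ae μ ?_
    filter_upwards [hv, hw] with X h1 h2
    filter_upwards [tendsto_atTop.1 h1 0, tendsto_atTop.1 h2 0] with n h3 h4
    rw [lev_apply, mul_div_cancel₀ _ hn.ne', inner_add_right, innerHom_apply, innerHom_apply,
      abs_of_nonneg h3, abs_of_nonneg h4]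
    constructor <;> linarith
  obtain ⟨a, ha, h1⟩ := block_limit μ hL hp (innerHom v) hn
    (hb.mono fun X h => h.mono fun n h' => h'.1) (nu_ae μ hv)
  obtain ⟨b, hb0, h2⟩ := block_limit μ hL hp (innerHom w) hn
    (hb.mono fun X h => h.mono fun n h' => h'.2) (nu_ae μ hw)
  refine ⟨a / b, div_pos ha hb0, ?_⟩
  have h3 : ∀ᵐ X ∂(nu (lev (v + w)) μ), X ∈ Rat v w (a / b) := by
    filter_upwards [h1, h2, all_blocks μ hL hp, nu_ae μ hw] with X h4 h5 h6 h7
    obtain ⟨M, hM, hMt⟩ := exists_index (S := St (lev (v + w)) X) (by simp [St]) (St_strict h6.2)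
    refine ⟨h7, ((h4 M hM hMt).div (h5 M hM hMt) hb0.ne').congr' ?_⟩
    filter_upwards [hMt.eventually_ge_atTop 1] with n hn1
    have : (M n : ℝ) ≠ 0 := by
      have : (0 : ℝ) < M n := by exact_mod_cast hn1
      exact this.ne'
    simp only [Pi.div_apply, innerHom_apply]
    rw [div_div_div_cancel_right₀ this]
  rcases Ln.trivial_of_escape μ hd hμ (hpos hw) (meas_Rat v w (a / b)) (tinv_Rat _ _ _)
    (sinv_Rat _ _ _) with h | h
  · have h4 := h.1 0
    rw [← annM_apply μ 0 (meas_Rat _ _ _)] at h4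
    obtain ⟨X, h5, h6⟩ := (h3.and (nu_ae μ (measure_eq_zero_iff_ae_notMem.1 h4))).exists
    exact absurd h5 h6
  · have h4 := h.1 0
    rw [← annM_apply μ 0 (meas_Rat _ _ _)] at h4
    exact (prob_compl_eq_zero_iff (meas_Rat _ _ _)).2 h4

end Vale.Agent.N147
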