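import Mathlib.Analysis.InnerProductSpace.PiL2
import Mathlib.MeasureTheory.Measure.Typeclasses.Probability
import Mathlib.Tactic

/-! From the zero-one law, the ratio theorem and the oscillation theorem to the shape of the set of
directions of escape. -/

open MeasureTheory Filter
open scoped Topology

namespace Vale.Agent.N147

variable {Ω : Type*} [MeasurableSpace Ω] {d : ℕ}

/-- escape in the direction `l` -/
def Esc (x : Ω → ℕ → EuclideanSpace ℝ (Fin d)) (l : EuclideanSpace ℝ (Fin d)) : Set Ω :=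
  {a | Tendsto (fun n => inner ℝ (x a n) l) atTop atTop}

/-- oscillation in the direction `l` -/
def Osc (y : ℕ → EuclideanSpace ℝ (Fin d)) (l : EuclideanSpace ℝ (Fin d)) : Prop :=
  (∃ᶠ n in atTop, 0 ≤ inner ℝ (y n) l) ∧ ∃ᶠ n in atTop, inner ℝ (y n) l ≤ 0

/-- The probabilistic input. -/
structure Input (A : Measure Ω) (x : Ω → ℕ → EuclideanSpace ℝ (Fin d)) : Prop where
  meas : ∀ l, MeasurableSet (Esc x l)
  zo : ∀ l, A (Esc x l) = 0 ∨ A (Esc x l) = 1
  ratio : ∀ v w, A (Esc x v) = 1 → A (Esc x w) = 1 → ∃ r : ℝ, 0 < r ∧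
    ∀ᵐ a ∂A, Tendsto (fun n => inner ℝ (x a n) v / inner ℝ (x a n) w) atTop (𝓝 r)
  osc : ∀ l, l ≠ 0 → A (Esc x l) = 0 → A (Esc x (-l)) = 0 → ∀ᵐ a ∂A, Osc (x a) l

variable {A : Measure Ω} [IsProbabilityMeasure A] {x : Ω → ℕ → EuclideanSpace ℝ (Fin d)}

theorem Input.one_iff (h : Input A x) (l : EuclideanSpace ℝ (Fin d)) :
    A (Esc x l) = 1 ↔ ∀ᵐ a ∂A, a ∈ Esc x l :=
  (prob_compl_eq_zero_iff (h.meas l)).symm

omit [IsProbabilityMeasure A] in
theorem Input.osc_off (h : Input A x) {W : Submodule ℝ (EuclideanSpace ℝ (Fin d))}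
    (hW : ∀ l, A (Esc x l) = 1 → l ∈ W) {l : EuclideanSpace ℝ (Fin d)} (hl : l ∉ W) :
    ∀ᵐ a ∂A, Osc (x a) l :=
  h.osc l (fun h0 => hl (h0 ▸ W.zero_mem)) ((h.zo l).resolve_right fun h1 => hl (hW l h1))
    ((h.zo (-l)).resolve_right fun h1 => hl (W.neg_mem_iff.1 (hW _ h1)))

theorem tendsto_dir {y : ℕ → EuclideanSpace ℝ (Fin d)} {c : ℕ → ℝ} {u : EuclideanSpace ℝ (Fin d)}
    (hu : u ≠ 0) (hc : ∀ᶠ n in atTop, 0 < c n)
    (h : Tendsto (fun n => (c n)⁻¹ • y n) atTop (𝓝 u)) :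
    Tendsto (fun n => ‖y n‖⁻¹ • y n) atTop (𝓝 (‖u‖⁻¹ • u)) := by
  refine ((h.norm.inv₀ (norm_ne_zero_iff.2 hu)).smul h).congr' ?_
  filter_upwards [hc] with n hn
  rw [norm_smul, smul_smul, Real.norm_of_nonneg (inv_nonneg.2 hn.le), mul_inv, inv_inv,
    mul_right_comm, mul_inv_cancel₀ hn.ne', one_mul]

theorem Input.shape (h : Input A x) {w : EuclideanSpace ℝ (Fin d)} (hw : A (Esc x w) = 1) :
    ∃ (W : Submodule ℝ (EuclideanSpace ℝ (Fin d))) (ν : EuclideanSpace ℝ (Fin d)),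
      ν ∈ W ∧ ‖ν‖ = 1 ∧ (∀ l, A (Esc x l) = 1 ↔ l ∈ W ∧ 0 < inner ℝ l ν) ∧
      (∀ᵐ a ∂A, Tendsto (fun n => ‖W.starProjection (x a n)‖⁻¹ • W.starProjection (x a n))
        atTop (𝓝 ν)) ∧
      ∀ l, l ∉ W → ∀ᵐ a ∂A, ∀ K : ℝ,
        (∃ᶠ n in atTop, K ≤ inner ℝ (x a n) l / inner ℝ (x a n) ν) ∧
          ∃ᶠ n in atTop, inner ℝ (x a n) l / inner ℝ (x a n) ν ≤ K := by
  let W : Submodule ℝ (EuclideanSpace ℝ (Fin d)) :=
    { carrier := {v | ∃ r : ℝ,
        ∀ᵐ a ∂A, Tendsto (fun n => inner ℝ (x a n) v / inner ℝ (x a n) w) atTop (𝓝 r)}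
      zero_mem' := ⟨0, Eventually.of_forall fun a => by simp⟩
      add_mem' := by
        rintro v v' ⟨r, hr⟩ ⟨r', hr'⟩
        refine ⟨r + r', ?_⟩
        filter_upwards [hr, hr'] with a h1 h2
        exact (h1.add h2).congr fun n => by rw [inner_add_right, add_div]
      smul_mem' := by
        rintro c v ⟨r, hr⟩
        refine ⟨c * r, ?_⟩
        filter_upwards [hr] with a h1
        exact (h1.const_mul c).congr fun n => by rw [inner_smul_right, mul_div_assoc] }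
  have hTW : ∀ l, A (Esc x l) = 1 → l ∈ W := fun l hl => by
    obtain ⟨r, -, hr⟩ := h.ratio l w hl hw
    exact ⟨r, hr⟩
  have hwa := (h.one_iff w).1 hw
  let b := stdOrthonormalBasis ℝ W
  have hb : ∀ i, ∃ r : ℝ, ∀ᵐ a ∂A, Tendsto (fun n => inner ℝ (x a n) (b i : EuclideanSpace ℝ (Fin d))
      / inner ℝ (x a n) w) atTop (𝓝 r) := fun i => (b i).2
  choose r hr using hb
  set u : EuclideanSpace ℝ (Fin d) := ∑ i, r i • (b i : EuclideanSpace ℝ (Fin d)) with hu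
  have huW : u ∈ W := W.sum_mem fun i _ => W.smul_mem _ (b i).2
  have hlim : ∀ᵐ a ∂A, Tendsto (fun n => (inner ℝ (x a n) w)⁻¹ • W.starProjection (x a n))
      atTop (𝓝 u) := by
    filter_upwards [ae_all_iff.2 hr] with a ha
    refine (tendsto_finsetSum Finset.univ fun i _ =>
      (ha i).smul_const (b i : EuclideanSpace ℝ (Fin d))).congr fun n => ?_
    rw [b.starProjection_eq_sum_rankOne]
    simp only [sum_apply, InnerProductSpace.rankOne_apply, Finset.smul_sum,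
      smul_smul]
    refine Finset.sum_congr rfl fun i _ => ?_
    rw [real_inner_comm, div_eq_inv_mul]
  have hrat : ∀ᵐ a ∂A, ∀ l ∈ W, Tendsto (fun n => inner ℝ (x a n) l / inner ℝ (x a n) w) atTop
      (𝓝 (inner ℝ u l)) := by
    filter_upwards [hlim] with a ha l hl
    refine (ha.inner (𝕜 := ℝ) (tendsto_const_nhds (x := l))).congr fun n => ?_
    rw [inner_smul_left, Submodule.inner_starProjection_left_eq_right,
      Submodule.starProjection_eq_self_iff.2 hl, div_eq_inv_mul]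
    rfl
  have hpos : ∀ l, A (Esc x l) = 1 → 0 < inner ℝ u l := fun l hl => by
    obtain ⟨s, hs, h1⟩ := h.ratio l w hl hw
    obtain ⟨a, h2, h3⟩ := (h1.and hrat).exists
    rwa [tendsto_nhds_unique (h3 l (hTW l hl)) h2]
  have hu0 : u ≠ 0 := fun h0 => by simpa [h0] using hpos w hw
  have hn : 0 < ‖u‖⁻¹ := inv_pos.2 (norm_pos_iff.2 hu0)
  have hT : ∀ l, A (Esc x l) = 1 ↔ l ∈ W ∧ 0 < inner ℝ l (‖u‖⁻¹ • u) := by
    intro l
    rw [inner_smul_right, mul_pos_iff_of_pos_left hn, real_inner_comm]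
    refine ⟨fun hl => ⟨hTW l hl, hpos l hl⟩, fun hl => (h.one_iff l).2 ?_⟩
    filter_upwards [hrat, hwa] with a h1 h2
    refine ((h1 l hl.1).pos_mul_atTop hl.2 h2).congr' ?_
    filter_upwards [h2.eventually_gt_atTop 0] with n hn'
    rw [div_mul_cancel₀ _ hn'.ne']
  have hν : ‖‖u‖⁻¹ • u‖ = 1 := norm_smul_inv_norm hu0
  refine ⟨W, ‖u‖⁻¹ • u, W.smul_mem _ huW, hν, hT, ?_, fun l hl => ?_⟩
  · filter_upwards [hlim, hwa] with a h1 h2
    exact tendsto_dir hu0 (h2.eventually_gt_atTop 0) h1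
  · set ν := ‖u‖⁻¹ • u
    have hνW : ν ∈ W := W.smul_mem _ huW
    have h1 := (h.one_iff ν).1 ((hT ν).2 ⟨hνW, by rw [real_inner_self_eq_norm_sq, hν]; norm_num⟩)
    have h2 : ∀ t : ℤ, ∀ᵐ a ∂A, Osc (x a) (l - (t : ℝ) • ν) := fun t =>
      h.osc_off hTW fun h3 => hl (by simpa using W.add_mem h3 (W.smul_mem (t : ℝ) hνW))
    filter_upwards [h1, ae_all_iff.2 h2] with a h3 h4 K
    have h5 := h3.eventually_gt_atTop 0
    constructor
    · refine ((h4 ⌈K⌉).1.and_eventually h5).mono fun n hn' => ?_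
      rw [inner_sub_right, inner_smul_right, sub_nonneg, ← le_div_iff₀ hn'.2] at hn'
      exact (Int.le_ceil K).trans hn'.1
    · refine ((h4 ⌊K⌋).2.and_eventually h5).mono fun n hn' => ?_
      rw [inner_sub_right, inner_smul_right, sub_nonpos, ← div_le_iff₀ hn'.2] at hn'
      exact hn'.1.trans (Int.floor_le K)

theorem Osc.inner_eq_zero {y : ℕ → EuclideanSpace ℝ (Fin d)} {l u : EuclideanSpace ℝ (Fin d)}
    (h : Osc y l) (hu : Tendsto (fun n => ‖y n‖⁻¹ • y n) atTop (𝓝 u)) : inner ℝ u l = 0 := by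
  have h1 : Tendsto (fun n => ‖y n‖⁻¹ * inner ℝ (y n) l) atTop (𝓝 (inner ℝ u l)) :=
    (hu.inner (𝕜 := ℝ) (tendsto_const_nhds (x := l))).congr fun n => by
      rw [inner_smul_left]
      rfl
  refine le_antisymm (not_lt.1 fun h2 => ?_) (not_lt.1 fun h2 => ?_)
  · obtain ⟨n, h3, h4⟩ := (h.2.and_eventually (h1.eventually_const_lt h2)).exists
    exact absurd h4 (not_lt.2 (mul_nonpos_of_nonneg_of_nonpos (by positivity) h3))
  · obtain ⟨n, h3, h4⟩ := (h.1.and_eventually (h1.eventually_lt_const h2)).exists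
    exact absurd h4 (not_lt.2 (mul_nonneg (by positivity) h3))

omit [IsProbabilityMeasure A] in
theorem Input.conv_zero (h : Input A x) {W : Submodule ℝ (EuclideanSpace ℝ (Fin d))}
    (hW : ∀ l, A (Esc x l) = 1 → l ∈ W) (hne : W ≠ ⊤) :
    A {a | ∃ u, ‖u‖ = 1 ∧ Tendsto (fun n => ‖x a n‖⁻¹ • x a n) atTop (𝓝 u)} = 0 := by
  classical
  let e := EuclideanSpace.basisFun (Fin d) ℝ
  obtain ⟨j, hj⟩ : ∃ j, e j ∉ W := by
    by_contra hcon
    push Not at hcon
    refine hne (eq_top_iff.2 fun v _ => ?_)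
    rw [← e.sum_repr v]
    exact W.sum_mem fun i _ => W.smul_mem _ (hcon i)
  have h1 : ∀ i, ∀ᵐ a ∂A, Osc (x a) (if e i ∈ W then e i + e j else e i) := fun i => by
    refine h.osc_off hW ?_
    split_ifs with hi
    · exact fun h2 => hj ((W.add_mem_iff_right hi).1 h2)
    · exact hi
  refine measure_eq_zero_iff_ae_notMem.2 ?_
  filter_upwards [ae_all_iff.2 h1] with a ha
  rintro ⟨u, hu, hlim⟩
  have h2 := fun i => (ha i).inner_eq_zero hlim
  have h3 : inner ℝ u (e j) = 0 := by simpa [hj] using h2 j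
  have h4 : ∀ i, inner ℝ u (e i) = 0 := fun i => by
    have := h2 i
    split_ifs at this
    · rwa [inner_add_right, h3, add_zero] at this
    · exact this
  have h5 : u = 0 := by
    rw [← e.sum_repr' u]
    exact Finset.sum_eq_zero fun i _ => by rw [real_inner_comm, h4, zero_smul]
  simp [h5] at hu

theorem Input.tfae (h : Input A x) (hd : 0 < d) : List.TFAE
    [A {a | ∃ u, ‖u‖ = 1 ∧ Tendsto (fun n => ‖x a n‖⁻¹ • x a n) atTop (𝓝 u)} ≠ 0,
      Submodule.span ℝ {l | A (Esc x l ∪ Esc x (-l)) ≠ 0} = ⊤,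
      ∃ ν, ‖ν‖ = 1 ∧ (∀ᵐ a ∂A, Tendsto (fun n => ‖x a n‖⁻¹ • x a n) atTop (𝓝 ν)) ∧
        ∀ l, A (Esc x l) = 1 ↔ 0 < inner ℝ l ν] := by
  have hsub : ∀ l, A (Esc x l) = 1 → l ∈ Submodule.span ℝ {l | A (Esc x l ∪ Esc x (-l)) ≠ 0} :=
    fun l hl => Submodule.subset_span fun h0 => by
      have := measure_mono_null Set.subset_union_left h0
      rw [hl] at this
      exact one_ne_zero this
  tfae_have 1 → 2 := fun h1 => by
    by_contra hne
    exact h1 (h.conv_zero hsub hne)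
  tfae_have 2 → 3 := fun h2 => by
    have hle : ∀ W : Submodule ℝ (EuclideanSpace ℝ (Fin d)), (∀ l, A (Esc x l) = 1 → l ∈ W) →
        W = ⊤ := fun W hW => by
      rw [eq_top_iff, ← h2, Submodule.span_le]
      intro l hl
      by_contra hl'
      exact hl (measure_union_null ((h.zo l).resolve_right fun h1 => hl' (hW l h1))
        ((h.zo (-l)).resolve_right fun h1 => hl' (W.neg_mem_iff.1 (hW _ h1))))
    obtain ⟨w, hw⟩ : ∃ w, A (Esc x w) = 1 := by
      by_contra hcon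
      push Not at hcon
      have : Nonempty (Fin d) := ⟨⟨0, hd⟩⟩
      exact bot_ne_top (hle ⊥ fun l hl => absurd hl (hcon l))
    obtain ⟨W, ν, -, h3, h4, h5, -⟩ := h.shape hw
    obtain rfl := hle W fun l hl => ((h4 l).1 hl).1
    refine ⟨ν, h3, ?_, fun l => by simpa using h4 l⟩
    filter_upwards [h5] with a ha
    simpa only [Submodule.starProjection_eq_self_iff.2 Submodule.mem_top] using ha
  tfae_have 3 → 1 := by
    rintro ⟨ν, h1, h2, -⟩ h0
    obtain ⟨a, h3, h4⟩ := (h2.and (measure_eq_zero_iff_ae_notMem.1 h0)).exists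
    exact h4 ⟨ν, h1, h3⟩
  tfae_finish

end Vale.Agent.N147
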