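import Vale.Agent.N147.Defs
import Vale.Agent.N147.Ratio
import Vale.Agent.N147.Shape
import Vale.Agent.P147W36.Q

/-! The probabilistic input for the walk in an iid elliptic environment. -/

open MeasureTheory Filter
open scoped Topology

namespace Vale.Agent.N147

open Vale.Agent.P147W36

variable {d : ℕ} (μ : Measure (Row d)) [IsProbabilityMeasure μ]

theorem inner_pos (X : Paths d) (n : ℕ) (l : EuclideanSpace ℝ (Fin d)) :
    inner ℝ (pos X n) l = P147.inner (X n) fun i => l i := by
  simp [pos, PiLp.inner_apply, P147.inner, mul_comm]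

theorem annealed_eq_annM : annealed μ (Q 0) = P147.Z.annM (μ.map toRow) 0 :=
  Measure.ext fun B hB => by rw [annealed_eq μ 0 hB, P147.Z.annM_apply _ 0 hB]

theorem elliptic_map (hμ : Elliptic μ) : P147.Elliptic (μ.map toRow) := by
  have h1 : MeasurableSet {p : P147.Row d | ∀ u, 0 < p.1 u} := by
    rw [Set.ofPred_forall]
    exact MeasurableSet.iInter fun u => measurableSet_lt measurable_const
      ((measurable_pi_apply u).comp measurable_subtype_coe)
  have h2 : MeasurableSet {p : Row d | ∀ e, 0 < p.1 e} := by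
    rw [Set.ofPred_forall]
    exact MeasurableSet.iInter fun u => measurableSet_lt measurable_const
      ((measurable_pi_apply u).comp measurable_subtype_coe)
  refine (ae_map_iff measurable_toRow.aemeasurable h1).2 ?_
  have h3 : ∀ᵐ p ∂μ, p ∈ {p : Row d | ∀ e, 0 < p.1 e} := (prob_compl_eq_zero_iff h2).2 hμ
  filter_upwards [h3] with p hp u
  exact hp _

theorem input (hd : 2 ≤ d) (hμ : Elliptic μ) : Input (annealed μ (Q 0)) pos := by
  have : IsProbabilityMeasure (μ.map toRow) :=
    Measure.isProbabilityMeasure_map measurable_toRow.aemeasurable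
  have hμ' := elliptic_map μ hμ
  have hE : ∀ l : EuclideanSpace ℝ (Fin d),
      Esc (pos : Paths d → ℕ → _) l = P147.Escape fun i => l i := fun l => escape_eq l
  refine ⟨measurableSet_escape, zero_one μ hd hμ, fun v w hv hw => ?_, fun l hl h1 h2 => ?_⟩
  · rw [annealed_eq_annM, hE] at hv hw
    obtain ⟨r, hr, h⟩ := ratio (μ.map toRow) hd hμ'
      ((prob_compl_eq_zero_iff (P147.Ln.meas_escape _)).2 hv)
      ((prob_compl_eq_zero_iff (P147.Ln.meas_escape _)).2 hw)
    refine ⟨r, hr, ?_⟩
    rw [annealed_eq_annM]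
    filter_upwards [h] with X hX
    simp only [inner_pos]
    exact hX.2
  · have hl' : (fun i => l i) ≠ 0 := fun h => hl (by
      ext i
      exact congrFun h i)
    rw [annealed_eq_annM, hE, P147.Z.annM_apply _ 0 (P147.Ln.meas_escape _)] at h1 h2
    rw [annealed_eq_annM]
    rcases P147.Ln.trichotomy (μ.map toRow) hd hμ' hl' with h | h | h
    · exact absurd ((h.1.1 0).symm.trans h1) one_ne_zero
    · exact absurd ((h.2.1.1 0).symm.trans h2) one_ne_zero
    · have h3 := h.2.2.1 0
      rw [← P147.Z.annM_apply _ 0 (P147.Ln.meas_oscillate _)] at h3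
      have h4 : ∀ᵐ X ∂(P147.Z.annM (μ.map toRow) 0), X ∈ P147.Ln.Oscillate fun i => l i :=
        (prob_compl_eq_zero_iff (P147.Ln.meas_oscillate _)).2 h3
      filter_upwards [h4] with X hX
      simp only [Osc, inner_pos]
      exact ⟨hX.1 0, hX.2 0⟩

theorem main (hd : 2 ≤ d) (hμ : Elliptic μ) :
    (∀ P : Env d → Measure (Paths d), (∀ ω, IsQuenched ω 0 (P ω)) →
      -- (1) the directional zero-one law
      (∀ l, annealed μ P (Escape l) = 0 ∨ annealed μ P (Escape l) = 1) ∧
      -- (2) the directions of escape form the empty set or an open half of a subspace `W`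
      ((∀ l, annealed μ P (Escape l) = 0) ∨
        ∃ (W : Submodule ℝ (EuclideanSpace ℝ (Fin d))) (ν : EuclideanSpace ℝ (Fin d)), ν ∈ W ∧
          (∀ l, annealed μ P (Escape l) = 1 ↔ l ∈ W ∧ 0 < inner ℝ l ν) ∧
          (∀ᵐ X ∂annealed μ P, DirTo (proj W X) ν) ∧
          ∀ l, l ∉ W → ∀ᵐ X ∂annealed μ P, Unbounded X l ν) ∧
      -- (3) the asymptotic direction
      List.TFAE
        [annealed μ P {X | ∃ u, DirTo (pos X) u} ≠ 0,
          Submodule.span ℝ {l | annealed μ P (Escape l ∪ Escape (-l)) ≠ 0} = ⊤,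
          ∃ ν, (∀ᵐ X ∂annealed μ P, DirTo (pos X) ν) ∧
            ∀ l, annealed μ P (Escape l) = 1 ↔ 0 < inner ℝ l ν]) ∧
    -- the quenched laws exist and the annealed law is a probability measure
    ∃ P : Env d → Measure (Paths d), (∀ ω, IsQuenched ω 0 (P ω)) ∧ Measurable P ∧
      IsProbabilityMeasure (annealed μ P) := by
  refine ⟨fun P hP => ?_, Q 0, fun ω => isQuenched_Q ω 0, measurable_Q 0, isProb_annealed μ 0⟩
  obtain rfl : P = Q 0 := funext fun ω => (hP ω).eq_Q
  have := isProb_annealed μ 0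
  have h := input μ hd hμ
  refine ⟨h.zo, ?_, ?_⟩
  · by_cases hw : ∃ w, annealed μ (Q 0) (Escape w) = 1
    · obtain ⟨w, hw⟩ := hw
      obtain ⟨W, ν, h1, h2, h3, h4, h5⟩ := h.shape hw
      exact Or.inr ⟨W, ν, h1, h3, h4.mono fun X hX => ⟨h2, hX⟩, h5⟩
    · exact Or.inl fun l => (h.zo l).resolve_right fun h1 => hw ⟨l, h1⟩
  · have h1 := h.tfae (by omega)
    tfae_have 1 → 2 := (h1.out 0 1).1
    tfae_have 2 → 3 := fun h2 => by
      obtain ⟨ν, h3, h4, h5⟩ := (h1.out 1 2).1 h2
      exact ⟨ν, h4.mono fun X hX => ⟨h3, hX⟩, h5⟩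
    tfae_have 3 → 1 := by
      rintro ⟨ν, h3, -⟩ h0
      obtain ⟨X, h4, h5⟩ := (h3.and (measure_eq_zero_iff_ae_notMem.1 h0)).exists
      exact h5 ⟨ν, h4⟩
    tfae_finish

end Vale.Agent.N147
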